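import Vale.Agent.N033.Inst

/-!
# The rings `ℤ`, `ℤ[i]`, `ℤ[ω]`, and matrices
-/

namespace Vale.Agent.N033

open Finset

theorem int_frob (p : ℕ) (hp : p.Prime) (k : ℕ) (c : ℤ) : (p : ℤ) ∣ c ^ (p ^ k) - c := by
  haveI : Fact p.Prime := ⟨hp⟩
  rw [← ZMod.intCast_zmod_eq_zero_iff_dvd]
  push_cast
  rw [ZMod.pow_card_pow, sub_self]

theorem pr_int : Pr (2 : ℤ) 4 where
  nu := ⟨fun x => x.natAbs * x.natAbs, fun x => by rw [Int.natAbs_mul_self, star_trivial]⟩
  prime := Int.prime_two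
  stl := ⟨1, by simp⟩
  nrm := by simp
  frobp := fun p hp _ x => int_frob p hp 2 x

/-- `ℤ[ω]` with `ω ^ 2 = -1 + b ω`. -/
abbrev QA (b : ℤ) := QuadraticAlgebra ℤ (-1) b

/-- The generator. -/
def om (b : ℤ) : QA b := ⟨0, 1⟩

theorem qa_eq {b : ℤ} (z : QA b) : z = (z.re : QA b) + (z.im : QA b) * om b := by
  ext <;> simp [om]

theorem om_star (b : ℤ) : om b * star (om b) = 1 := by
  ext <;> simp [om, QuadraticAlgebra.re_one, QuadraticAlgebra.im_one]

theorem star_om (b : ℤ) : star (om b) = (b : QA b) - om b := by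
  ext <;> simp [om]

theorem norm_nonneg' {b : ℤ} (hb : b = 0 ∨ b = -1) (z : QA b) : 0 ≤ z.norm := by
  rw [QuadraticAlgebra.norm_def]
  rcases hb with rfl | rfl <;> nlinarith [sq_nonneg (z.re - z.im), sq_nonneg z.re, sq_nonneg z.im]

theorem norm_zero' {b : ℤ} (hb : b = 0 ∨ b = -1) (z : QA b) (h : z.norm = 0) : z = 0 := by
  rw [QuadraticAlgebra.norm_def] at h
  have h1 : z.re = 0 ∧ z.im = 0 := by
    rcases hb with rfl | rfl <;> constructor <;>
      nlinarith [sq_nonneg (z.re - z.im), sq_nonneg z.re, sq_nonneg z.im]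
  ext
  · exact h1.1
  · exact h1.2

theorem qa_domain {b : ℤ} (hb : b = 0 ∨ b = -1) : IsDomain (QA b) := by
  haveI : NoZeroDivisors (QA b) := ⟨fun {x y} h => by
    have h1 : x.norm * y.norm = 0 := by rw [← map_mul, h, QuadraticAlgebra.norm_zero]
    exact (mul_eq_zero.mp h1).imp (norm_zero' hb x) (norm_zero' hb y)⟩
  exact NoZeroDivisors.to_isDomain _

/-- The homomorphism that sends the generator to `u`. -/
def qh {b : ℤ} {A : Type*} [CommRing A] (u : A) (hu : u * u = -1 + (b : A) * u) : QA b →+* A :=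
  (QuadraticAlgebra.lift ⟨u, by simpa using hu⟩ : QA b →ₐ[ℤ] A)

theorem qh_om {b : ℤ} {A : Type*} [CommRing A] (u : A) (hu : u * u = -1 + (b : A) * u) :
    qh u hu (om b) = u := by
  simp [qh, om]

theorem lam_nrm {b : ℤ} {q : ℕ} (hq : (q : ℤ) = 2 - b) :
    (1 - om b) * star (1 - om b) = (q : QA b) := by
  ext <;> simp [om, hq, QuadraticAlgebra.re_one, QuadraticAlgebra.im_one]
  ring

theorem lam_dvd_iff {b : ℤ} {q : ℕ} (hq : (q : ℤ) = 2 - b)
    (hu : (1 : ZMod q) * 1 = -1 + (b : ZMod q) * 1) (z : QA b) :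
    (1 - om b) ∣ z ↔ qh 1 hu z = 0 := by
  constructor
  · rintro ⟨c, rfl⟩
    rw [map_mul, map_sub, map_one, qh_om, sub_self, zero_mul]
  · intro h
    rw [qa_eq z, map_add, map_mul, map_intCast, map_intCast, qh_om, mul_one, ← Int.cast_add,
      ZMod.intCast_zmod_eq_zero_iff_dvd] at h
    obtain ⟨c, hc⟩ := h
    have h2 := congrArg (fun x : ℤ => (x : QA b)) hc
    simp only [Int.cast_add, Int.cast_mul, Int.cast_natCast] at h2
    rw [← lam_nrm hq] at h2
    refine ⟨star (1 - om b) * c - z.im, ?_⟩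
    nth_rewrite 1 [qa_eq z]
    linear_combination h2

theorem qa_pr {b : ℤ} (hb : b = 0 ∨ b = -1) {q t : ℕ} [Fact q.Prime] (hq : (q : ℤ) = 2 - b)
    (ht : om b ^ t = 1) (hpt : ∀ p : ℕ, p.Prime → p.Coprime q → p ^ 2 ≡ 1 [MOD t]) :
    Pr (1 - om b) q ∧ ∀ x : QA b, (1 - om b) ∣ x ^ q - x := by
  have hu : (1 : ZMod q) * 1 = -1 + (b : ZMod q) * 1 := by
    have := congrArg (fun x : ℤ => (x : ZMod q)) hq
    simp only [Int.cast_natCast, ZMod.natCast_self, Int.cast_sub, Int.cast_ofNat] at this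
    linear_combination -this
  have hd := lam_dvd_iff hq hu
  refine ⟨⟨⟨fun x => x.norm.toNat, fun x => ?_⟩, ⟨?_, ?_, fun x y hxy => ?_⟩,
    ⟨-star (om b), ?_⟩, lam_nrm hq, fun p hp hc x => ?_⟩, fun x => ?_⟩
  · rw [← QuadraticAlgebra.algebraMap_norm_eq_mul_star, ← Int.cast_natCast,
      Int.toNat_of_nonneg (norm_nonneg' hb x)]
    rfl
  · intro h
    have := congrArg QuadraticAlgebra.im h
    simp [om, QuadraticAlgebra.im_one] at this
  · intro h
    have := (hd 1).mp h.dvd
    simp at this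
  · rw [hd, map_mul] at hxy
    rw [hd, hd]
    exact mul_eq_zero.mp hxy
  · rw [star_sub, star_one]
    linear_combination (-1 : QA b) * om_star b
  · obtain ⟨r, hr⟩ := exists_add_pow_prime_pow_eq hp (x.re : QA b) ((x.im : QA b) * om b) 2
    have h1 : om b ^ (p ^ 2) = om b := by
      rw [pow_eq_pow_of_modEq (hpt p hp hc) ht, pow_one]
    obtain ⟨c, hc⟩ := int_frob p hp 2 x.re
    obtain ⟨d, hd⟩ := int_frob p hp 2 x.im
    have hc' := congrArg (fun y : ℤ => (y : QA b)) hc
    have hd' := congrArg (fun y : ℤ => (y : QA b)) hd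
    simp only [Int.cast_sub, Int.cast_pow, Int.cast_mul, Int.cast_natCast] at hc' hd'
    rw [← qa_eq x, mul_pow, h1] at hr
    refine ⟨c + d * om b + x.re * (x.im * om b) * r, ?_⟩
    rw [hr]
    linear_combination hc' + om b * hd' - qa_eq x
  · rw [hd, map_sub, map_pow, ZMod.pow_card, sub_self]

/-- A matrix developed over a group is orthogonal iff the autocorrelations vanish. -/
theorem dev_iff {G S : Type*} [AddCommGroup G] [Fintype G] [DecidableEq G] [CommRing S]
    [StarRing S] (h : G → S) (H : Matrix G G S) (hH : ∀ x y, H x y = h (y - x)) (c : S) :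
    H * H.conjTranspose = c • (1 : Matrix G G S) ↔
      ∀ t, ∑ g, h g * star (h (g + t)) = if t = 0 then c else 0 := by
  have key : ∀ x y, (H * H.conjTranspose) x y = ∑ g, h g * star (h (g + (x - y))) := by
    intro x y
    rw [Matrix.mul_apply, ← Equiv.sum_comp (Equiv.addRight x)]
    refine Finset.sum_congr rfl fun g _ => ?_
    simp only [Matrix.conjTranspose_apply, hH, Equiv.coe_addRight, add_sub_cancel_right,
      add_sub_assoc]
  constructor
  · intro e t
    have := key t 0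
    rw [sub_zero, e] at this
    rw [← this, Matrix.smul_apply, Matrix.one_apply]
    simp
  · intro e
    ext x y
    rw [key, e, Matrix.smul_apply, Matrix.one_apply]
    simp [sub_eq_zero]

/-- There is a circulant complex Hadamard matrix of order `n` with `t`-th roots of unity as
entries. -/
def CB (t n : ℕ) : Prop :=
  ∃ H : Matrix (Fin n) (Fin n) ℂ, (∀ i j, H i j ^ t = 1) ∧
    H * H.conjTranspose = (n : ℂ) • (1 : Matrix (Fin n) (Fin n) ℂ) ∧
    ∃ h : Fin n → ℂ, ∀ i j : Fin n, H i j = h (j - i)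

theorem cb_iff {b : ℤ} (hb : b = 0 ∨ b = -1) {t : ℕ} [NeZero t] (ht : om b ^ t = 1) {u : ℂ}
    (hprim : IsPrimitiveRoot u t) (hu : u * u = -1 + (b : ℂ) * u) (k : ℕ) :
    CB t (k + 1) ↔ ∃ a : ZMod (k + 1) → ℕ, ∀ s, ∑ g, om b ^ a g * star (om b ^ a (g + s)) =
      if s = 0 then ((k + 1 : ℕ) : QA b) else 0 := by
  have hst : ∀ z, qh u hu (star z) = star (qh u hu z) := by
    have h1 : u * star u = 1 := by
      have := Complex.norm_eq_one_of_pow_eq_one hprim.pow_eq_one (NeZero.ne t)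
      rw [Complex.star_def, Complex.mul_conj, Complex.normSq_eq_norm_sq, this]; simp
    have h2 : star u = (b : ℂ) - u := by linear_combination (b - u) * h1 + star u * hu
    intro z
    rw [qa_eq z]
    simp only [star_add, star_mul, star_intCast, map_add, map_mul, map_intCast, star_om, map_sub,
      qh_om, h2]
  have hinj : Function.Injective (qh u hu) := by
    rw [injective_iff_map_eq_zero]
    intro z hz
    apply norm_zero' hb
    have h1 := congrArg (qh u hu) (QuadraticAlgebra.algebraMap_norm_eq_mul_star z)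
    rw [map_mul, hz, zero_mul, eq_intCast, map_intCast] at h1
    exact_mod_cast h1
  have hsum : ∀ (a : ZMod (k + 1) → ℕ) (s : ZMod (k + 1)),
      (∑ g, om b ^ a g * star (om b ^ a (g + s)) = if s = 0 then ((k + 1 : ℕ) : QA b) else 0) ↔
      (∑ g, u ^ a g * star (u ^ a (g + s)) = if s = 0 then ((k + 1 : ℕ) : ℂ) else 0) := by
    intro a s
    rw [← hinj.eq_iff, map_sum]
    simp only [map_mul, hst, map_pow, qh_om, apply_ite (qh u hu), map_natCast, map_zero]
  constructor
  · rintro ⟨H, h1, h2, h, h3⟩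
    have h4 : ∀ g : Fin (k + 1), ∃ i, u ^ i = h g := by
      intro g
      have := h1 0 g
      rw [h3, sub_zero] at this
      obtain ⟨i, _, hi⟩ := hprim.eq_pow_of_pow_eq_one this
      exact ⟨i, hi⟩
    choose a ha using h4
    refine ⟨a, fun s => (hsum a s).mpr ?_⟩
    have h5 : h = fun g => u ^ a g := funext fun g => (ha g).symm
    subst h5
    exact (dev_iff (G := ZMod (k + 1)) (fun g => u ^ a g) H h3 _).mp h2 s
  · rintro ⟨a, ha⟩
    refine ⟨Matrix.of fun i j => u ^ a (j - i), fun i j => ?_, ?_, fun g => u ^ a g,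
      fun _ _ => rfl⟩
    · rw [Matrix.of_apply, ← pow_mul, mul_comm, pow_mul, hprim.pow_eq_one, one_pow]
    · exact (dev_iff (G := ZMod (k + 1)) (fun g => u ^ a g) _ (fun _ _ => rfl) _).mpr
        fun s => (hsum a s).mp (ha s)

theorem cb_main {b : ℤ} (hb : b = 0 ∨ b = -1) {q t : ℕ} [Fact q.Prime] [NeZero t]
    (hq : (q : ℤ) = 2 - b) (ht : om b ^ t = 1)
    (hpt : ∀ p : ℕ, p.Prime → p.Coprime q → p ^ 2 ≡ 1 [MOD t]) {u : ℂ}
    (hprim : IsPrimitiveRoot u t) (hu : u * u = -1 + (b : ℂ) * u) {n : ℕ} (hn : 1 ≤ n)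
    (hq3 : ¬ q ^ 3 ∣ n) (h : CB t n) : n = 1 ∨ n = q ∨ n = q ^ 2 := by
  obtain ⟨k, rfl⟩ : ∃ k, n = k + 1 := ⟨n - 1, by omega⟩
  obtain ⟨a, ha⟩ := (cb_iff hb ht hprim hu k).mp h
  haveI := qa_domain hb
  obtain ⟨hP, hfr⟩ := qa_pr hb hq ht hpt
  refine cyclic_main hP hfr hq3 (fun g => om b ^ a g) (fun g => ?_) ha
  have := sub_dvd_pow_sub_pow (om b) 1 (a g)
  rw [one_pow] at this
  exact (dvd_of_eq (by ring) : 1 - om b ∣ -(om b - 1)).trans (neg_dvd.mpr this)

theorem om4 : om 0 ^ 4 = 1 := by decide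

theorem om3 : om (-1) ^ 3 = 1 := by decide

theorem prim4 : IsPrimitiveRoot Complex.I 4 := Complex.isPrimitiveRoot_I

theorem I_eq : Complex.I * Complex.I = -1 + ((0 : ℤ) : ℂ) * Complex.I := by simp

theorem quaternary (n : ℕ) (hn : 1 ≤ n) (h8 : ¬ 8 ∣ n) : CB 4 n ↔ n = 1 ∨ n = 2 ∨ n = 4 := by
  constructor
  · intro h
    refine cb_main (b := 0) (q := 2) (Or.inl rfl) (by norm_num) om4 (fun p hp hc => ?_) prim4 I_eq
      hn h8 h
    obtain ⟨k, rfl⟩ := Nat.coprime_two_right.mp hc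
    rw [show (2 * k + 1) ^ 2 = 1 + 4 * (k ^ 2 + k) by ring]
    exact Nat.add_mul_mod_self_left _ _ _
  · rintro (rfl | rfl | rfl)
    · exact (cb_iff (Or.inl rfl) om4 prim4 I_eq 0).mpr ⟨fun _ => 0, by decide⟩
    · exact (cb_iff (Or.inl rfl) om4 prim4 I_eq 1).mpr ⟨![0, 1], by decide⟩
    · exact (cb_iff (Or.inl rfl) om4 prim4 I_eq 3).mpr ⟨![0, 0, 0, 2], by decide⟩

theorem ternary (n : ℕ) (hn : 1 ≤ n) (h27 : ¬ 27 ∣ n) : CB 3 n ↔ n = 1 ∨ n = 3 ∨ n = 9 := by
  have hprim := Complex.isPrimitiveRoot_exp 3 (by norm_num)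
  generalize Complex.exp (2 * Real.pi * Complex.I / (3 : ℕ)) = u at hprim
  have hu : u * u = -1 + ((-1 : ℤ) : ℂ) * u := by
    have := hprim.geom_sum_eq_zero (by norm_num)
    simp only [Finset.sum_range_succ, Finset.sum_range_zero] at this
    push_cast
    linear_combination this
  haveI : Fact (Nat.Prime 3) := ⟨Nat.prime_three⟩
  constructor
  · intro h
    refine cb_main (b := -1) (q := 3) (Or.inr rfl) (by norm_num) om3 (fun p hp hc => ?_) hprim hu
      hn h27 h
    exact Nat.ModEq.pow_totient hc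
  · rintro (rfl | rfl | rfl)
    · exact (cb_iff (Or.inr rfl) om3 hprim hu 0).mpr ⟨fun _ => 0, by decide⟩
    · exact (cb_iff (Or.inr rfl) om3 hprim hu 2).mpr ⟨![0, 0, 1], by decide⟩
    · exact (cb_iff (Or.inr rfl) om3 hprim hu 8).mpr ⟨![0, 0, 0, 0, 1, 2, 0, 2, 1], by decide⟩

/-- An abelian group of order `N w` with an element of order `w` prime to `N`. -/
theorem decomp {G : Type*} [AddCommGroup G] [Finite G] (N : ℕ) (g : G)
    (hc : Nat.card G = N * addOrderOf g) (hcop : N.Coprime (addOrderOf g)) :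
    Nat.card (G ⧸ AddSubgroup.zmultiples g) = N ∧
      Nonempty (G ≃+ (G ⧸ AddSubgroup.zmultiples g) × ZMod (addOrderOf g)) := by
  set Z := AddSubgroup.zmultiples g with hZ
  have hZc : Nat.card Z = addOrderOf g := Nat.card_zmultiples g
  have hpos : 0 < addOrderOf g := addOrderOf_pos g
  have hQ : Nat.card (G ⧸ Z) = N := by
    have := AddSubgroup.card_eq_card_quotient_mul_card_addSubgroup Z
    rw [hc, hZc] at this
    exact (Nat.eq_of_mul_eq_mul_right hpos this).symm
  refine ⟨hQ, ?_⟩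
  have hmem : ∀ x : G, nsmulAddMonoidHom N x ∈ Z := by
    intro x
    rw [← QuotientAddGroup.eq_zero_iff, nsmulAddMonoidHom_apply, QuotientAddGroup.mk_nsmul, ← hQ]
    exact card_nsmul_eq_zero'
  have e : ZMod (addOrderOf g) ≃+ Z := hZc ▸ zmodAddCyclicAddEquiv (G := Z) inferInstance
  let ψ : G →+ (G ⧸ Z) × ZMod (addOrderOf g) := (QuotientAddGroup.mk' Z).prod
    (e.symm.toAddMonoidHom.comp ((nsmulAddMonoidHom N).codRestrict Z hmem))
  haveI : NeZero (addOrderOf g) := ⟨hpos.ne'⟩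
  refine ⟨AddEquiv.ofBijective ψ ?_⟩
  rw [Nat.bijective_iff_injective_and_card]
  refine ⟨?_, by rw [Nat.card_prod, hQ, Nat.card_zmod, hc]⟩
  rw [injective_iff_map_eq_zero]
  intro x hx
  have h1 : x ∈ Z := (QuotientAddGroup.eq_zero_iff x).mp (congrArg Prod.fst hx)
  have h2 : N • x = 0 := by
    have h3 : e.symm ((nsmulAddMonoidHom N).codRestrict Z hmem x) = 0 := congrArg Prod.snd hx
    rw [EmbeddingLike.map_eq_zero_iff] at h3
    exact congrArg Subtype.val h3
  have h4 : addOrderOf x ∣ addOrderOf g := addOrderOf_dvd_of_mem_zmultiples h1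
  have h5 : addOrderOf x ∣ N := addOrderOf_dvd_of_nsmul_eq_zero h2
  exact AddMonoid.addOrderOf_eq_one_iff.mp (Nat.eq_one_of_dvd_coprimes hcop h5 h4)

theorem real_group {G : Type*} [AddCommGroup G] [Fintype G] [DecidableEq G] (w : ℕ) (hw : Odd w)
    (hc : Fintype.card G = 4 * w) (hg : ∃ g : G, addOrderOf g = w) :
    (∃ H : Matrix G G ℝ, (∀ x y, H x y = 1 ∨ H x y = -1) ∧
      H * H.transpose = (Fintype.card G : ℝ) • (1 : Matrix G G ℝ) ∧
      ∃ h : G → ℝ, ∀ x y, H x y = h (y - x)) ↔ w = 1 := by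
  classical
  constructor
  · rintro ⟨H, h1, h2, h, h3⟩
    obtain ⟨g, rfl⟩ := hg
    have hcop : Nat.Coprime 4 (addOrderOf g) :=
      Nat.Coprime.pow_left 2 (Nat.coprime_two_left.mpr hw)
    obtain ⟨hQ, ⟨e⟩⟩ := decomp 4 g (by rw [Nat.card_eq_fintype_card, hc]) hcop
    haveI : Fintype (G ⧸ AddSubgroup.zmultiples g) := Fintype.ofFinite _
    rw [Nat.card_eq_fintype_card] at hQ
    haveI : NeZero (addOrderOf g) := ⟨(addOrderOf_pos g).ne'⟩
    rw [← Matrix.conjTranspose_eq_transpose_of_trivial, dev_iff h H h3] at h2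
    have hcast : ∀ x, (((if h x = 1 then 1 else -1 : ℤ)) : ℝ) = h x := by
      intro x
      have := h1 0 x
      rw [h3, sub_zero] at this
      rcases this with hj | hj
      · rw [if_pos hj, hj]; norm_num
      · rw [if_neg (by rw [hj]; norm_num), hj]; norm_num
    have h4 : ∀ t, ∑ x, (if h x = 1 then 1 else -1 : ℤ) * star (if h (x + t) = 1 then 1 else -1 : ℤ)
        = if t = 0 then ((4 * addOrderOf g : ℕ) : ℤ) else 0 := by
      intro t
      apply Int.cast_injective (α := ℝ)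
      have := h2 t
      simp only [star_trivial, hc] at this
      simp only [star_trivial, Int.cast_sum, Int.cast_mul, hcast, this]
      split_ifs <;> simp
    refine main1 (lam := (2 : ℤ)) (Q := G ⧸ AddSubgroup.zmultiples g) (by rw [hQ]; exact pr_int)
      (by rw [hQ]; exact hcop.symm) (fun x => if h (e.symm x) = 1 then 1 else -1) (fun x => ?_)
      (by rw [hQ]; exact perfect_equiv e (fun x => if h x = 1 then 1 else -1) _ h4)
    split_ifs <;> simp
  · rintro rfl
    refine ⟨Matrix.of fun x y => if y - x = 0 then -1 else 1, fun x y => ?_, ?_,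
      fun z => if z = 0 then -1 else 1, fun _ _ => rfl⟩
    · rw [Matrix.of_apply]; split_ifs <;> simp
    · rw [← Matrix.conjTranspose_eq_transpose_of_trivial,
        dev_iff (fun z : G => if z = 0 then (-1 : ℝ) else 1)
          (Matrix.of fun x y => if y - x = 0 then -1 else 1) (fun _ _ => rfl)]
      intro t
      have e1 : ∀ x : G, (if x = 0 then (-1 : ℝ) else 1) * star (if x + t = 0 then (-1 : ℝ) else 1)
          = 1 - 2 * (if x = 0 then 1 else 0) - 2 * (if x = -t then 1 else 0)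
            + 4 * (if x = 0 then (if t = 0 then 1 else 0) else 0) := by
        intro x
        simp only [star_trivial, eq_neg_iff_add_eq_zero]
        by_cases h0 : x = 0
        · subst h0
          simp only [zero_add, if_true]
          split_ifs <;> norm_num
        · simp only [if_neg h0]
          split_ifs <;> norm_num
      simp only [e1, Finset.sum_add_distrib, Finset.sum_sub_distrib, ← Finset.mul_sum,
        Finset.sum_ite_eq', Finset.mem_univ, if_true, Finset.sum_const, Finset.card_univ, hc]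
      split_ifs <;> norm_num

end Vale.Agent.N033
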